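import Vale.Agent.P279.Bdl.B1

namespace Vale.Agent.Results.P279.NagataNear

open MvPolynomial Vale.Agent.P279

/-- Nagata's inequality up to an error smaller than any power of `r`, for all curves and all
multiplicities, and Nagata's inequality itself for all curves of degree at most `r ^ A`. -/
theorem result (A : ℕ) :
    (∃ C : ℝ, ∀ r : ℕ, 10 ≤ r → VeryGenerally r fun p =>
      ∀ (d : ℕ) (F : MvPolynomial (Fin 3) ℂ), F.IsHomogeneous d → F ≠ 0 →
        ∀ m : Fin r → ℕ, (∀ i, MultAtLeast F (p i) (m i)) →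
          ∑ i, (m i : ℝ) ≤ d * √(r + C / (r : ℝ) ^ A)) ∧
    (∃ r₀ : ℕ, ∀ r : ℕ, r₀ ≤ r → VeryGenerally r fun p =>
      ∀ (d : ℕ) (F : MvPolynomial (Fin 3) ℂ), 1 ≤ d → d ≤ r ^ A → F.IsHomogeneous d → F ≠ 0 →
        ∀ m : Fin r → ℕ, (∀ i, MultAtLeast F (p i) (m i)) →
          ∑ i, (m i : ℝ) < d * √r) := by
  constructor
  · obtain ⟨C, _, h⟩ := close_all A
    refine ⟨C, fun r hr => veryGenerally_of_algInd r _ ?_⟩
    intro p _ hp2 hai d F hF h0 m hm
    exact h r hr d 0 m (eff_of_curve hp2 hai hF h0 m hm)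
  · obtain ⟨r₀, h⟩ := strict_all A
    refine ⟨r₀, fun r hr => veryGenerally_of_algInd r _ ?_⟩
    intro p _ hp2 hai d F hd hdA hF h0 m hm
    exact h r hr d 0 m hd hdA (eff_of_curve hp2 hai hF h0 m hm)

end Vale.Agent.Results.P279.NagataNear
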