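import Vale.Agent.P279.Quasi

namespace Vale.Agent.Results.P279.NagataQuasi

open MvPolynomial Vale.Agent.P279

/-- Nagata's inequality up to an error `O(exp (-(log r) ^ 2 / 400))`, for all `r ≥ 10`, all curves
and all multiplicities, with the explicit constant `2` for `r ≥ 64 ^ 140`; and Nagata's inequality
itself for all `r ≥ 64 ^ 140` and all curves of degree at most `exp ((log r) ^ 2 / 400)`. -/
theorem result :
    (∃ C : ℝ, ∀ r : ℕ, 10 ≤ r → VeryGenerally r fun p =>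
      ∀ (d : ℕ) (F : MvPolynomial (Fin 3) ℂ), F.IsHomogeneous d → F ≠ 0 →
        ∀ m : Fin r → ℕ, (∀ i, MultAtLeast F (p i) (m i)) →
          ∑ i, (m i : ℝ) ≤ d * √(r + C * Real.exp (-(Real.log r ^ 2 / 400)))) ∧
    (∀ r : ℕ, 64 ^ 140 ≤ r → VeryGenerally r fun p =>
      ∀ (d : ℕ) (F : MvPolynomial (Fin 3) ℂ), F.IsHomogeneous d → F ≠ 0 →
        ∀ m : Fin r → ℕ, (∀ i, MultAtLeast F (p i) (m i)) →
          ∑ i, (m i : ℝ) ≤ d * √(r + 2 * Real.exp (-(Real.log r ^ 2 / 400)))) ∧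
    (∀ r : ℕ, 64 ^ 140 ≤ r → VeryGenerally r fun p =>
      ∀ (d : ℕ) (F : MvPolynomial (Fin 3) ℂ), 1 ≤ d → (d : ℝ) ≤ Real.exp (Real.log r ^ 2 / 400) →
        F.IsHomogeneous d → F ≠ 0 →
          ∀ m : Fin r → ℕ, (∀ i, MultAtLeast F (p i) (m i)) →
            ∑ i, (m i : ℝ) < d * √r) := by
  refine ⟨?_, ?_, ?_⟩
  · obtain ⟨C, _, h⟩ := close_quasi
    refine ⟨C, fun r hr => veryGenerally_of_algInd r _ ?_⟩
    intro p _ hp2 hai d F hF h0 m hm
    exact h r hr d 0 m (eff_of_curve hp2 hai hF h0 m hm)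
  · refine fun r hr => veryGenerally_of_algInd r _ ?_
    intro p _ hp2 hai d F hF h0 m hm
    exact close_large r hr d 0 m (eff_of_curve hp2 hai hF h0 m hm)
  · refine fun r hr => veryGenerally_of_algInd r _ ?_
    intro p _ hp2 hai d F hd hdA hF h0 m hm
    exact strict_quasi r hr d 0 m hd hdA (eff_of_curve hp2 hai hF h0 m hm)

end Vale.Agent.Results.P279.NagataQuasi
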